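import Vale.Agent.P235.LL.Rows
import Vale.Agent.P235.LL.Basic

/-! P235, LL: the step maps (row STEP): the step map `ψ` of a system, extended to the invisible
components through the coordinates of the children (helper538). -/

namespace Vale.Agent.P235.LL.H538

open Vale.Agent.P235 Finset

theorem rowStep (hext : RowExtend) : RowStep := by
  classical
  obtain ⟨C, hC1, hC⟩ := hext (Fin 3 × Bool)
  refine ⟨12 * C, by linarith, ?_⟩
  intro V _ G ℓ K hc hℓ hK S D hD k j
  have hdom := S.dom D hD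
  obtain ⟨ψ, hψ1, hψ0, hψv, hψg⟩ := S.step D hD k j
  have hm := pathDist_isMet hc hℓ
  set V1 := D.vis k (j + 1) with hV1
  set V0 := D.vis k j with hV0
  have hV01 : V0 ⊆ V1 := hdom.vis_mono (Nat.le_succ j)
  have hV1n : V1.Nonempty := hdom.vis_nonempty k (j + 1)
  -- the darts of the components
  let E : Set V → Set (V × (Fin 3 × Bool → ℝ)) := fun W =>
    {e | ∃ x, x ∉ V1 ∧ W = compSet G V1 x ∧ ∃ v b, (S.ch D k j x).Dart G v b ∧
      e = (b, fun i => (S.ch D k j x).X ℓ i v b)}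
  have hEfin : ∀ W, (E W).Finite := by
    intro W
    refine (Set.finite_range (fun t : V × V × V =>
      ((t.2.2, fun i => (S.ch D k j t.1).X ℓ i t.2.1 t.2.2) :
        V × (Fin 3 × Bool → ℝ)))).subset ?_
    rintro e ⟨x, hx, hW, v, b, hd, rfl⟩
    exact ⟨(x, v, b), rfl⟩
  have hEvis : ∀ W, ∀ e ∈ E W, e.1 ∈ V1 := by
    rintro W e ⟨x, hx, hW, v, b, hd, rfl⟩
    exact Sys.ch_dart hD hx hd
  have hElip : ∀ W, ∀ e ∈ E W, ∀ e' ∈ E W, ψ e.1 e'.1 ≤ 2 * ∑ t, |e.2 t - e'.2 t| := by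
    rintro W e he e' he'
    have h1 := hEvis W e he
    have h2 := hEvis W e' he'
    obtain ⟨x, hx, hW, v, b, hd, rfl⟩ := he
    obtain ⟨x', hx', hW', v', b', hd', rfl⟩ := he'
    have hch : S.ch D k j x' = S.ch D k j x := by
      unfold Sys.ch
      rw [← hV1, ← hW, ← hW']
    rw [hch] at hd'
    rw [hch]
    exact (hψv _ h1 _ h2).trans ((S.dom _ (Sys.ch_good hD hx)).ctrl v b v' b' hd hd')
  obtain ⟨st, hst1, hstv, hstc, hstd⟩ := hC V ψ hψ1 V1 (Set V) (fun x => compSet G V1 x) E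
    (fun x i => (S.ch D k j x).c i x) 2 (by norm_num) hEfin hEvis hElip
  -- distance to a foot of the child
  have hfoot : ∀ x, ∃ z ∈ V1, pathDist G ℓ x z = dto G ℓ V1 x ∧
      st x z ≤ 12 * C * dto G ℓ V1 x := by
    intro x
    by_cases hx : x ∈ V1
    · refine ⟨x, hx, ?_, ?_⟩
      · rw [dto_zero hc hℓ hx, hm.self]
      · rw [dto_zero hc hℓ hx, hst1.self, mul_zero]
    · have hmem := Sys.ch_mem hD hx
      obtain ⟨v, b, hd, h1, h2, -⟩ := (S.dom _ (Sys.ch_good hD hx)).foot' hc hℓ hmem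
      have h3 := Sys.dto_ch hc hℓ hD hx
      rw [h3] at h1 h2
      refine ⟨b, Sys.ch_dart hD hx hd, h1, ?_⟩
      have h4 := hstd x hx (b, fun i => (S.ch D k j x).X ℓ i v b) ⟨x, hx, rfl, v, b, hd, rfl⟩
      have h5 : ∑ t, |(S.ch D k j x).c t x - (S.ch D k j x).X ℓ t v b| ≤
          ∑ _t : Fin 3 × Bool, dto G ℓ V1 x := sum_le_sum fun t _ => h2 t
      have h6 : ∑ _t : Fin 3 × Bool, dto G ℓ V1 x = 6 * dto G ℓ V1 x := by
        rw [sum_const, card_univ, nsmul_eq_mul]
        norm_num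
      rw [h6] at h5
      calc st x b ≤ C * 2 * ∑ t, |(S.ch D k j x).c t x - (S.ch D k j x).X ℓ t v b| := h4
        _ ≤ C * 2 * (6 * dto G ℓ V1 x) := mul_le_mul_of_nonneg_left h5 (by linarith)
        _ = 12 * C * dto G ℓ V1 x := by ring
  refine ⟨st, hst1, ?_, ?_, ?_, ?_⟩
  · intro a ha b hb
    rw [hstv a (hV01 ha) b (hV01 hb)]
    exact hψ0 a ha b hb
  · intro a ha b hb
    rw [hstv a ha b hb]
    exact hψv a ha b hb
  · intro x y hxy hx
    have hD' := S.dom _ (Sys.ch_good hD hx)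
    have hmem := Sys.ch_mem hD hx
    have hl : 0 < ℓ s(x, y) := hℓ _ (G.mem_edgeSet.mpr hxy)
    have hsl : 0 ≤ (∑ i, (S.ch D k j x).sl i x y) * ℓ s(x, y) :=
      mul_nonneg (sum_nonneg fun i _ => hD'.sl_nonneg i x y) hl.le
    have key : st x y ≤ C * 2 * ((∑ i, (S.ch D k j x).sl i x y) * ℓ s(x, y)) := by
      rw [sum_mul]
      by_cases hy : y ∈ V1
      · have hyU : y ∉ (S.ch D k j x).U := fun h => Sys.not_vis_of_ch hD hx h hy
        refine (hstd x hx (y, fun i => (S.ch D k j x).X ℓ i x y)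
          ⟨x, hx, rfl, x, y, ⟨hmem, hyU, hxy⟩, rfl⟩).trans
          (mul_le_mul_of_nonneg_left (sum_le_sum fun i _ => ?_) (by linarith))
        exact hD'.dart_sl i hmem hyU hxy
      · have hyc : y ∈ compSet G V1 x := compSet_adj (compSet_self hx) hxy hy
        have hyU : y ∈ (S.ch D k j x).U := by
          rw [Sys.ch_U hD hx]
          exact hyc
        refine (hstc x hx y hy (compSet_eq hyc).symm).trans
          (mul_le_mul_of_nonneg_left (sum_le_sum fun i _ => ?_) (by linarith))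
        show |(S.ch D k j x).c i x - (S.ch D k j y).c i y| ≤ _
        rw [Sys.ch_congr hyc]
        exact hD'.edge_sl i hmem hyU hxy
    calc st x y ≤ C * 2 * ((∑ i, (S.ch D k j x).sl i x y) * ℓ s(x, y)) := key
      _ ≤ 12 * C * ((∑ i, (S.ch D k j x).sl i x y) * ℓ s(x, y)) :=
        mul_le_mul_of_nonneg_right (by linarith) hsl
      _ = 12 * C * (∑ i, (S.ch D k j x).sl i x y) * ℓ s(x, y) := by ring
  · intro x y
    obtain ⟨z, hz, hxz, hstz⟩ := hfoot x
    obtain ⟨z', hz', hyz, hstz'⟩ := hfoot y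
    have h1 := hψg z hz z' hz'
    have h2 : ψ z z' ≤ st x y + st x z + st y z' := by
      rw [← hstv z hz z' hz']
      have e1 := hst1.tri z x z'
      have e2 := hst1.tri x y z'
      rw [hst1.symm z x] at e1
      linarith
    have h3 : K * ψ z z' ≤ K * st x y + 12 * C * K * (dto G ℓ V1 x + dto G ℓ V1 y) := by
      have := mul_le_mul_of_nonneg_left (h2.trans
        (show st x y + st x z + st y z' ≤ st x y + 12 * C * dto G ℓ V1 x + 12 * C * dto G ℓ V1 y by
          linarith)) (show (0 : ℝ) ≤ K by linarith)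
      linarith
    have h4 : pathDist G ℓ x y ≤ pathDist G ℓ z z' + (dto G ℓ V1 x + dto G ℓ V1 y) := by
      have e1 := hm.tri x z y
      have e2 := hm.tri z z' y
      rw [hm.symm z' y] at e2
      linarith
    have h5 : dto G ℓ V0 x + dto G ℓ V0 y ≤ dto G ℓ V0 z + dto G ℓ V0 z' +
        (dto G ℓ V1 x + dto G ℓ V1 y) := by
      have e1 := dto_tri hc hℓ V0 x z
      have e2 := dto_tri hc hℓ V0 y z'
      linarith
    have h6 : min (pathDist G ℓ x y) (dto G ℓ V0 x + dto G ℓ V0 y) ≤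
        min (pathDist G ℓ z z') (dto G ℓ V0 z + dto G ℓ V0 z') +
          (dto G ℓ V1 x + dto G ℓ V1 y) := by
      rcases min_cases (pathDist G ℓ z z') (dto G ℓ V0 z + dto G ℓ V0 z') with h | h
      · rw [h.1]
        exact (min_le_left _ _).trans h4
      · rw [h.1]
        exact (min_le_right _ _).trans h5
    linarith

end Vale.Agent.P235.LL.H538
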